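import Vale.Agent.P281.H624.TM.Zer
import Vale.Agent.P281.H303.Gen.Irr
import Vale.Agent.P281.H969.Gen.Fin

/-!
# P281, project T-M, block R7 (helper624), plugged
-/

namespace Vale.Agent.P281.H624.TM

theorem zerStmt : H740.TM.ZerStmt := zer H303.Gen.irr H969.Gen.fin

end Vale.Agent.P281.H624.TM
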