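import Vale.Agent.P281.H740.TM.SpecR3

/-!
# P281, project T-M, block R9 (helper624): transfer of sections and Kodaira dimensions
-/

open Set Filter Vale.Agent.P281 Vale.Agent.P281.H713 Vale.Agent.P281.H713.TZ.S
open Vale.Agent.P281.H740 (eqF)
open scoped Topology ContDiff Manifold

noncomputable section

namespace Vale.Agent.P281.H624.TM

/-- a non constant function has a point where it is not zero -/
theorem exists_ne {d : ℕ} {F : Type} [TopologicalSpace F] [ChartedSpace (Cm d) F] {V : Set F}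
    (hV : IsOpen V) (hne : V.Nonempty) {u : F → ℂ} (hu : ∀ t ∈ V, J.dif (Cm d) u t ≠ 0) :
    ∃ V' ⊆ V, IsOpen V' ∧ V'.Nonempty ∧ ∀ t ∈ V', u t ≠ 0 := by
  obtain ⟨t, ht⟩ := hne
  have hc : ∀ t ∈ V, ContinuousAt u t := by
    intro t ht
    by_contra hcon
    apply hu t ht
    exact mfderiv_zero_of_not_mdifferentiableAt fun h => hcon h.continuousAt
  have h1 : ∃ t ∈ V, u t ≠ 0 := by
    by_contra hcon
    push Not at hcon
    apply hu t ht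
    have h2 : u =ᶠ[𝓝 t] fun _ => 0 := by
      filter_upwards [hV.mem_nhds ht] with z hz
      exact hcon z hz
    show mfderiv 𝓘(ℂ, Cm d) 𝓘(ℂ, ℂ) u t = 0
    rw [h2.mfderiv_eq]
    exact mfderiv_const
  obtain ⟨t₁, ht₁, h2⟩ := h1
  obtain ⟨V', h3, h4, h5⟩ := eventually_nhds_iff.1
    (((hc t₁ ht₁).eventually_ne h2).and (hV.mem_nhds ht₁))
  exact ⟨V', fun t ht => (h3 t ht).2, h4, ⟨t₁, h5⟩, fun t ht => (h3 t ht).1⟩

theorem exists_ne_all {d : ℕ} {F : Type} [TopologicalSpace F] [ChartedSpace (Cm d) F] {ι : Type}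
    (T : Finset ι) {u : ι → F → ℂ} {V : Set F} (hV : IsOpen V) (hne : V.Nonempty)
    (hu : ∀ b ∈ T, ∀ t ∈ V, J.dif (Cm d) (u b) t ≠ 0) :
    ∃ V' ⊆ V, IsOpen V' ∧ V'.Nonempty ∧ ∀ b ∈ T, ∀ t ∈ V', u b t ≠ 0 := by
  classical
  induction T using Finset.induction_on with
  | empty => exact ⟨V, Subset.rfl, hV, hne, fun b hb => absurd hb (Finset.notMem_empty b)⟩
  | @insert a T ha ih =>
    obtain ⟨V₁, h1, h2, h3, h4⟩ := ih fun b hb => hu b (Finset.mem_insert_of_mem hb)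
    obtain ⟨V₂, g1, g2, g3, g4⟩ := exists_ne h2 h3
      (fun t ht => hu a (Finset.mem_insert_self a T) t (h1 ht))
    refine ⟨V₂, g1.trans h1, g2, g3, fun b hb t ht => ?_⟩
    rcases Finset.mem_insert.1 hb with rfl | hb
    · exact g4 t ht
    · exact h4 b hb t (g1 ht)

/-- **R9** -/
theorem kodStmt : H740.TM.KodStmt := by
  classical
  intro n p X Z F C _ _ _ _ _ _ _ _ _ _ _ _ _ _ i i' γ Δ Γ N B hi hi' hγ hΔ hΔp hΓ hΓp hN hB hBd hBD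
    hT
  unfold kodR J.kod
  refine iSup₂_le ?_
  rintro j ⟨m, k, s, z, hm, hk, hs, hz, hs0, hsu⟩
  obtain ⟨k', θ, hk', hθ, hT⟩ := hT m k hm hk
  choose τ hτ hτe using fun b => hT (s b) (hs b)
  -- a general point
  have hop := H740.kod_open hi hΔ hk hs hz hs0 hsu
  obtain ⟨U, hU1, hU2, hU3⟩ := eventually_nhds_iff.1 hop
  obtain ⟨t₂, ht₂U, ht₂⟩ := hBd.inter_open_nonempty U hU2 ⟨z, hU3⟩
  have hBc : IsOpen (γ ⁻¹' B)ᶜ := (hB.preimage hγ.continuous).isOpen_compl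
  obtain ⟨V, hVU, hVo, ⟨t₁, ht₁⟩, hVu⟩ := exists_ne_all (d := 2) (Finset.univ : Finset (Fin j))
    (u := fun b w => s (b + 1) w / s 0 w) (V := U ∩ (γ ⁻¹' B)ᶜ) (hU2.inter hBc) ⟨t₂, ht₂U, ht₂⟩ (by
      intro b _ t ht h0
      obtain ⟨ξ, hξ⟩ := (hU1 t ht.1).2.2 (Pi.single b 1)
      have h1 := congrFun hξ b
      simp only [Pi.single_eq_same] at h1
      rw [h0] at h1
      exact zero_ne_one h1)
  obtain ⟨ht₁U, ht₁B⟩ := hVU ht₁
  obtain ⟨hz₁, hs₁, hsu₁⟩ := hU1 t₁ ht₁U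
  have hc₁ : γ t₁ ∉ B := ht₁B
  -- the conditions on `C`
  have hzC : ∀ D, k' D ≠ 0 → ∃ g, eqF p i' D (γ t₁) g ∧ g (γ t₁) ≠ 0 := by
    intro D hD
    have hΓD : Γ D ≠ 0 := by
      intro h0
      apply hD
      have h1 := hk' D
      rw [h0, mul_zero] at h1
      exact_mod_cast h1
    obtain ⟨e, he⟩ := (hΓp D hΓD).2.1 (i' (γ t₁))
    have h1 : eqF p i' D (γ t₁) (fun c => e (i' c)) := ⟨e, he, Eventually.of_forall fun _ => rfl⟩
    refine ⟨_, h1, fun h0 => hBD D hΓD (γ t₁) hc₁ (h1.mem.2 h0)⟩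
  have hτ0 : τ 0 (γ t₁) ≠ 0 := by
    intro h0
    have h1 := hτe 0 t₁ hc₁
    rw [h0, zero_mul] at h1
    exact hs₁ (pow_eq_zero_iff hN.ne' |>.1 h1)
  have hmN : 0 < m * N := Nat.mul_pos hm hN
  refine le_iSup₂_of_le j ⟨m * N, k', τ, γ t₁, hmN, hk', hτ, hzC, hτ0, ?_⟩ le_rfl
  -- the quotients on `C`
  choose A hA hAe using fun b => H740.section_loc hi' (hτ b) hzC
  have hA0 : A 0 (γ t₁) ≠ 0 := by
    intro h0
    have h1 := (hAe 0).self_of_nhds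
    rw [h0, zero_mul] at h1
    exact hτ0 h1
  have hjac : ∀ᶠ y in 𝓝 (γ t₁), jac (Cm 1) (chartAt (Cm 1) (γ t₁)) y ^ (m * N) ≠ 0 := by
    filter_upwards [(chartAt (Cm 1) (γ t₁)).open_source.mem_nhds (mem_chart_source _ _)] with y hy
    exact pow_ne_zero _ (jac_chart_ne_zero hy)
  have hv : ∀ b : Fin j, HolV (Cm 1) (fun c => τ (b + 1) c / τ 0 c) (γ t₁) := by
    intro b
    refine HolV.congr (HolV.div (hA (b + 1)) (hA 0) hA0) ?_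
    filter_upwards [hAe 0, hAe (b + 1), hjac] with y h1 h2 h3
    rw [h1, h2, mul_div_mul_right _ _ h3]
  have hev : ∀ᶠ t in 𝓝 t₁, γ t ∉ B ∧ s 0 t ≠ 0 := by
    filter_upwards [hBc.mem_nhds ht₁B, hU2.mem_nhds ht₁U] with t h1 h2
    exact ⟨h1, (hU1 t h2).2.1⟩
  have hrel : ∀ b : Fin j, (fun t => (s (b + 1) t / s 0 t) ^ N) =ᶠ[𝓝 t₁]
      (fun c => τ (b + 1) c / τ 0 c) ∘ γ := by
    intro b
    filter_upwards [hev] with t ht
    show (s (b + 1) t / s 0 t) ^ N = τ (b + 1) (γ t) / τ 0 (γ t)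
    rw [div_pow, hτe (b + 1) t ht.1, hτe 0 t ht.1, mul_div_mul_right _ _ (hθ t ht.1)]
  have hud : ∀ b : Fin j, MDifferentiableAt 𝓘(ℂ, Cm 2) 𝓘(ℂ, ℂ) (fun w => s (b + 1) w / s 0 w)
      t₁ := by
    intro b
    by_contra hcon
    obtain ⟨ξ, hξ⟩ := hsu₁ (Pi.single b 1)
    have h1 := congrFun hξ b
    have h2 : J.dif (Cm 2) (fun w => s (b + 1) w / s 0 w) t₁ = 0 :=
      mfderiv_zero_of_not_mdifferentiableAt hcon
    simp only [h2, Pi.single_eq_same] at h1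
    exact zero_ne_one h1
  have hγd : MDifferentiableAt 𝓘(ℂ, Cm 2) 𝓘(ℂ, Cm 1) γ t₁ := (hγ t₁).mdifferentiableAt (by simp)
  have hder : ∀ (b : Fin j) (ξ : Cm 2),
      (N : ℂ) * (s (b + 1) t₁ / s 0 t₁) ^ (N - 1) *
        J.dif (Cm 2) (fun w => s (b + 1) w / s 0 w) t₁ ξ =
      J.dif (Cm 1) (fun c => τ (b + 1) c / τ 0 c) (γ t₁)
        (mfderiv 𝓘(ℂ, Cm 2) 𝓘(ℂ, Cm 1) γ t₁ ξ) := by
    intro b ξ
    have h1 : mfderiv 𝓘(ℂ, Cm 2) 𝓘(ℂ, ℂ) (fun t => (s (b + 1) t / s 0 t) ^ N) t₁ =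
        (J.dif (Cm 1) (fun c => τ (b + 1) c / τ 0 c) (γ t₁)).comp
          (mfderiv 𝓘(ℂ, Cm 2) 𝓘(ℂ, Cm 1) γ t₁ : Cm 2 →L[ℂ] Cm 1) := by
      rw [(hrel b).mfderiv_eq]
      exact mfderiv_comp t₁ (hv b).mdiff hγd
    have h2 : mfderiv 𝓘(ℂ, Cm 2) 𝓘(ℂ, ℂ) (fun t => (s (b + 1) t / s 0 t) ^ N) t₁ =
        ((N : ℂ) * (s (b + 1) t₁ / s 0 t₁) ^ (N - 1)) •
          J.dif (Cm 2) (fun w => s (b + 1) w / s 0 w) t₁ := by
      have h3 := mfderiv_comp (I' := 𝓘(ℂ, ℂ)) t₁ (g := fun x : ℂ => x ^ N)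
        (f := fun w => s (b + 1) w / s 0 w) (differentiableAt_pow N).mdifferentiableAt (hud b)
      refine Eq.trans h3 ?_
      rw [mfderiv_eq_fderiv]
      refine ContinuousLinearMap.ext fun v => ?_
      show fderiv ℂ (fun x : ℂ => x ^ N) (s (b + 1) t₁ / s 0 t₁)
        (J.dif (Cm 2) (fun w => s (b + 1) w / s 0 w) t₁ v) = _
      rw [(hasDerivAt_pow N (s (b + 1) t₁ / s 0 t₁)).hasFDerivAt.fderiv]
      show J.dif (Cm 2) (fun w => s (b + 1) w / s 0 w) t₁ v *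
        ((N : ℂ) * (s (b + 1) t₁ / s 0 t₁) ^ (N - 1)) = _
      rw [mul_comm]
      rfl
    rw [h2] at h1
    exact congrArg (fun L : Cm 2 →L[ℂ] ℂ => L ξ) h1
  intro y
  have hN0 : (N : ℂ) ≠ 0 := by exact_mod_cast hN.ne'
  obtain ⟨ξ, hξ⟩ := hsu₁ fun b => y b / ((N : ℂ) * (s (b + 1) t₁ / s 0 t₁) ^ (N - 1))
  refine ⟨mfderiv 𝓘(ℂ, Cm 2) 𝓘(ℂ, Cm 1) γ t₁ ξ, ?_⟩
  funext b
  refine (hder b ξ).symm.trans ?_
  have h1 := congrFun hξ b
  rw [show J.dif (Cm 2) (fun w => s (b + 1) w / s 0 w) t₁ ξ = _ from h1]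
  exact mul_div_cancel₀ _ (mul_ne_zero hN0 (pow_ne_zero _ (hVu b (Finset.mem_univ _) t₁ ht₁)))

end Vale.Agent.P281.H624.TM
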