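import Vale.Agent.P281.H740.TM.SpecR2
import Vale.Agent.P281.H511.Gen.Prime

/-!
# P281, project T-M, block R7 (helper624): hypersurfaces are unions of finitely many prime divisors
-/

open Set Filter Vale.Agent.P281 Vale.Agent.P281.H713.TZ.S
open Vale.Agent.P281.H64.Gen (IrrStmt FinStmt IsSmallSet IsAnalyticSet)
open scoped Topology ContDiff Manifold

noncomputable section

namespace Vale.Agent.P281.H624.TM

/-- **R7** -/
theorem zer (hI : IrrStmt) (hF : FinStmt) : H740.TM.ZerStmt := by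
  intro n X _ _ _ _ _ A hA
  have hcl : IsClosed A := by
    rw [← isOpen_compl_iff, isOpen_iff_mem_nhds]
    intro x hx
    obtain ⟨g, hg, -, hgA⟩ := hA x
    have hgx : g x ≠ 0 := fun h => hx (hgA.self_of_nhds.2 h)
    filter_upwards [hgA, hg.continuousAt.eventually_ne hgx] with z h1 h2 h3
    exact h2 (h1.1 h3)
  have hfin : {E : Set X | J.IsPrime (Cm n) E ∧ E ⊆ A}.Finite := by
    refine hF n X A ⟨hcl, fun x => ?_⟩
    obtain ⟨g, hg, hg0, hgA⟩ := hA x
    exact ⟨g, hg, hg0, hgA.mono fun z hz h => hz.1 h⟩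
  refine ⟨hfin, fun x hx => ?_⟩
  by_contra hcon
  push Not at hcon
  have hU : (⋃₀ {E : Set X | J.IsPrime (Cm n) E ∧ E ⊆ A})ᶜ ∈ 𝓝 x := by
    refine IsOpen.mem_nhds ?_ ?_
    · rw [isOpen_compl_iff]
      rw [sUnion_eq_biUnion]
      exact hfin.isClosed_biUnion fun E hE => hE.1.1
    · rintro ⟨E, hE, hxE⟩
      exact hcon E hE.1 hE.2 hxE
  obtain ⟨g, hg, hg0, hgA⟩ := hA x
  obtain ⟨z, hzN, e, he, he0, hde, heD⟩ := H511.Gen.exists_smooth hg hg0 hgA hx hU
  obtain ⟨P, hP, hPA, hPe⟩ := hI n X A hcl hA z e he he0 hde heD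
  exact hzN ⟨P, ⟨hP, hPA⟩, (H511.Gen.isLocalEq_mem_iff hPe).self_of_nhds.2 he0⟩

end Vale.Agent.P281.H624.TM
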